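import Vale.Agent.Lib.P209.BigTinyBall

/-! Conjecture A of Siegel and Yao up to a slack linear in the (2 ^ n + 1)-st largest capacity. -/

open Vale.Agent.Lib.P209

/-- Let `S` be a set of at most `2 ^ n` indices such that `r i ≤ x` outside `S` and `r i + r j < R`
for distinct `i, j` in `S`. If `∑ r i ^ n + 5 n ^ 2 x R ^ (n - 1) < R ^ n`, then the closed balls of
capacities `r i` embed symplectically and disjointly in the open ball of capacity `R`. -/
theorem Vale.Agent.Results.P209.BigAndTiny.result (n k : ℕ) (hn : 2 ≤ n) (R x : ℝ) (hR : 0 < R)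
    (hx : 0 ≤ x) (r : Fin k → ℝ) (hr : ∀ i, 0 < r i) (S : Finset (Fin k)) (hS : S.card ≤ 2 ^ n)
    (hpair : ∀ i ∈ S, ∀ j ∈ S, i ≠ j → r i + r j < R) (htiny : ∀ i, i ∉ S → r i ≤ x)
    (hvol : ∑ i, r i ^ n + 5 * (n : ℝ) ^ 2 * x * R ^ (n - 1) < R ^ n) :
    BallPacking n k R r :=
  ballPacking_bigTiny hn hR hx r hr S hS hpair htiny hvol
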