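import Vale.Agent.Lib.P209.BigTinyBall

/-! One big ball, balls in the outer layers of a lattice and tiny balls in all the remaining space. -/

open Vale.Agent.Lib.P209

/-- Let `q u ≤ R`, `1 ≤ e ≤ q` and `n x < u`. One ball of capacity below `R - e u`, at most
`q ^ n - (q - e) ^ n` balls of capacities below `u` and any number of balls of capacities at most
`x` can be packed as soon as the volume condition holds with the slack
`n ! x ^ n + n ^ 2 x (2 R ^ (n - 1) + (q ^ n - (q - e) ^ n) u ^ (n - 1))`. -/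
theorem Vale.Agent.Results.P209.LatticeBigTiny.result (n k q e : ℕ) (hn : 2 ≤ n) (R u x : ℝ)
    (hu : 0 < u) (hx : 0 ≤ x) (hnx : (n : ℝ) * x < u) (hq : (q : ℝ) * u ≤ R) (he1 : 1 ≤ e)
    (he2 : e ≤ q) (r : Fin k → ℝ) (hr : ∀ i, 0 < r i) (i₀ : Fin k) (S : Finset (Fin k))
    (hi₀ : i₀ ∉ S) (hS : S.card ≤ q ^ n - (q - e) ^ n) (hbig : r i₀ + e * u < R)
    (hmid : ∀ i ∈ S, r i < u) (htiny : ∀ i, i ∉ S → i ≠ i₀ → r i ≤ x)
    (hvol : ∑ i, r i ^ n + ((n.factorial : ℕ) : ℝ) * x ^ n +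
      (n : ℝ) ^ 2 * x * (2 * R ^ (n - 1) + ((q ^ n - (q - e) ^ n : ℕ) : ℝ) * u ^ (n - 1)) < R ^ n) :
    BallPacking n k R r :=
  ballPacking_bigTiny_lattice hn hu hx hnx hq he1 he2 r hr i₀ S hi₀ hS hbig hmid htiny hvol
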