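import Vale.Agent.Lib.P209.Volume

/-! The volume condition with a linear gap suffices, for balls that are small except one. -/

open Vale.Agent.Lib.P209

/-- If all the capacities except one are at most `μ`, and `∑ r i ^ n < (R - n μ) ^ n` with
`n μ < R`, then the closed balls of capacities `r i` embed symplectically and disjointly in the
open ball of capacity `R`. -/
theorem Vale.Agent.Results.P209.VolumeGap.result (n k : ℕ) (hn : 0 < n) (R μ : ℝ)
    (r : Fin k → ℝ) (hr : ∀ i, 0 < r i) (i₀ : Fin k) (hμ0 : 0 ≤ μ)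
    (hμ : ∀ i, i ≠ i₀ → r i ≤ μ) (hnμ : (n : ℝ) * μ < R)
    (hvol : ∑ i, r i ^ n < (R - (n : ℝ) * μ) ^ n) :
    BallPacking n k R r :=
  ballPacking_volume hn r hr i₀ hμ0 hμ hnμ hvol
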