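import Vale.Agent.Results.P209.AtMostTwoPow
import Vale.Agent.Results.P209.BigAndTiny
import Vale.Agent.Results.P209.LatticeBigTiny
import Vale.Agent.Results.P209.VolumeGap

open Vale.Agent.Lib.P209

/-- Conjunction of the separate partial results of this problem. -/
theorem Vale.Agent.Results.P209.A0Conj.result :
    (∀ (n k : ℕ) (hn : 0 < n) (hk : k ≤ 2 ^ n)
    (R : ℝ) (r : Fin k → ℝ) (hr : ∀ i, 0 < r i) (hR : ∀ i, r i < R)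
    (hpair : ∀ i j, i ≠ j → r i + r j < R),
      BallPacking n k R r) ∧
    (∀ (n k : ℕ) (hn : 2 ≤ n) (R x : ℝ) (hR : 0 < R)
    (hx : 0 ≤ x) (r : Fin k → ℝ) (hr : ∀ i, 0 < r i) (S : Finset (Fin k)) (hS : S.card ≤ 2 ^ n)
    (hpair : ∀ i ∈ S, ∀ j ∈ S, i ≠ j → r i + r j < R) (htiny : ∀ i, i ∉ S → r i ≤ x)
    (hvol : ∑ i, r i ^ n + 5 * (n : ℝ) ^ 2 * x * R ^ (n - 1) < R ^ n),
      BallPacking n k R r) ∧
    (∀ (n k q e : ℕ) (hn : 2 ≤ n) (R u x : ℝ)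
    (hu : 0 < u) (hx : 0 ≤ x) (hnx : (n : ℝ) * x < u) (hq : (q : ℝ) * u ≤ R) (he1 : 1 ≤ e)
    (he2 : e ≤ q) (r : Fin k → ℝ) (hr : ∀ i, 0 < r i) (i₀ : Fin k) (S : Finset (Fin k))
    (hi₀ : i₀ ∉ S) (hS : S.card ≤ q ^ n - (q - e) ^ n) (hbig : r i₀ + e * u < R)
    (hmid : ∀ i ∈ S, r i < u) (htiny : ∀ i, i ∉ S → i ≠ i₀ → r i ≤ x)
    (hvol : ∑ i, r i ^ n + ((n.factorial : ℕ) : ℝ) * x ^ n +
      (n : ℝ) ^ 2 * x * (2 * R ^ (n - 1) + ((q ^ n - (q - e) ^ n : ℕ) : ℝ) * u ^ (n - 1)) < R ^ n),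
      BallPacking n k R r) ∧
    (∀ (n k : ℕ) (hn : 0 < n) (R μ : ℝ)
    (r : Fin k → ℝ) (hr : ∀ i, 0 < r i) (i₀ : Fin k) (hμ0 : 0 ≤ μ)
    (hμ : ∀ i, i ≠ i₀ → r i ≤ μ) (hnμ : (n : ℝ) * μ < R)
    (hvol : ∑ i, r i ^ n < (R - (n : ℝ) * μ) ^ n),
      BallPacking n k R r) :=
  ⟨@Vale.Agent.Results.P209.AtMostTwoPow.result,
   @Vale.Agent.Results.P209.BigAndTiny.result,
   @Vale.Agent.Results.P209.LatticeBigTiny.result,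
   @Vale.Agent.Results.P209.VolumeGap.result⟩
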