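import Vale.Agent.Lib.P209.TheoremA

/-! Conjecture A of Siegel and Yao holds for at most `2 ^ n` balls. -/

open Vale.Agent.Lib.P209

/-- If `k ≤ 2 ^ n`, every capacity is positive and below `R`, and `r i + r j < R` for `i ≠ j`,
then the closed balls of capacities `r i` embed symplectically and disjointly in the open ball of
capacity `R`. -/
theorem Vale.Agent.Results.P209.AtMostTwoPow.result (n k : ℕ) (hn : 0 < n) (hk : k ≤ 2 ^ n)
    (R : ℝ) (r : Fin k → ℝ) (hr : ∀ i, 0 < r i) (hR : ∀ i, r i < R)
    (hpair : ∀ i j, i ≠ j → r i + r j < R) :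
    BallPacking n k R r :=
  ballPacking_two_pow hn hk r hr hR hpair
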